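import Vale.Agent.H92.P344.Scalar

/-!
# P344: a lower bound `3n - d(n) - 2` for linear circuits computing the Fourier matrix `F_n`

Model (see `Vale.Agent.H92.P344.Defs`): a circuit is a list of gates; the nodes are the inputs
`x_0, ..., x_{n-1}` (nodes `0, ..., n-1`), the constant `0` (node `n`), and then one node per
gate; a gate `add i j`, `sub i j` or `smul c i` reads earlier nodes `i`, `j` and computes
`u + v`, `u - v` or `c * u`.  The hypothesis says that for each `j` the designated node `out j`
carries `(F_n x)_j = ∑ k, ζ^{jk} x_k` for every input `x`, where `ζ = e^{2πi/n}`.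
-/

namespace Vale.Agent.Results.P344.A_ThreeN

open Vale.Agent.H92.P344

theorem length_eq_countP_add (C : List Gate) :
    C.length = C.countP Gate.isAddSub + C.countP Gate.isSmul := by
  induction C with
  | nil => rfl
  | cons g gs ih =>
    cases g <;> simp only [List.length_cons, List.countP_cons, Gate.isAddSub, Gate.isSmul, ih]
      <;> simp <;> omega

/-- Every linear circuit (gates `u + v`, `u - v`, `c * u` with arbitrary complex constants `c`)
that computes the unnormalized discrete Fourier transform `F_n` has at least `2n - 2`
addition/subtraction gates and at least `n - d(n)` scalar gates, hence at least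
`3n - d(n) - 2` gates, where `d(n)` is the number of divisors of `n`. -/
theorem result (n : ℕ) (C : List Gate) (out : Fin n → ℕ)
    (h : ∀ (x : Fin n → ℂ) (j : Fin n),
      (run C (List.ofFn x ++ [0]))[out j]? =
        some (∑ k : Fin n,
          Complex.exp (2 * Real.pi * Complex.I / n) ^ ((j : ℕ) * (k : ℕ)) * x k)) :
    2 * n ≤ C.countP Gate.isAddSub + 2 ∧
    n ≤ C.countP Gate.isSmul + (Nat.divisors n).card ∧
    3 * n ≤ C.length + (Nat.divisors n).card + 2 := by
  have hrows : ∀ j : Fin n, row n j ∈ run C (init n) := rows_mem_of_computes n C out h
  have h1 := two_mul_le_countP_addSub n C hrows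
  have h2 := le_countP_smul_add_divisors n C hrows
  have h3 := length_eq_countP_add C
  refine ⟨h1, h2, ?_⟩
  omega

end Vale.Agent.Results.P344.A_ThreeN
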