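import Vale.Agent.H92.P344.Scalar

/-!
# P344: the lower bound `3n - d(n) - 2` for linear circuits computing `F_n`, with its values
for prime `n` and for `n = 2 ^ k`

Model as in `Vale.Agent.H92.P344.Defs` (see the hand-in `A_ThreeN`).  The statement is the one of
`A_ThreeN` together with its two most used special cases: at least `3n - 4` gates for prime `n`
and at least `3 * 2 ^ k - k - 3` gates for `n = 2 ^ k`.
-/

namespace Vale.Agent.Results.P344.B_ThreeNPrimesAndPowersOfTwo

open Vale.Agent.H92.P344

theorem length_eq_countP_add (C : List Gate) :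
    C.length = C.countP Gate.isAddSub + C.countP Gate.isSmul := by
  induction C with
  | nil => rfl
  | cons g gs ih =>
    cases g <;> simp only [List.length_cons, List.countP_cons, Gate.isAddSub, Gate.isSmul, ih]
      <;> simp <;> omega

theorem result (n : ℕ) (C : List Gate) (out : Fin n → ℕ)
    (h : ∀ (x : Fin n → ℂ) (j : Fin n),
      (run C (List.ofFn x ++ [0]))[out j]? =
        some (∑ k : Fin n,
          Complex.exp (2 * Real.pi * Complex.I / n) ^ ((j : ℕ) * (k : ℕ)) * x k)) :
    2 * n ≤ C.countP Gate.isAddSub + 2 ∧
    n ≤ C.countP Gate.isSmul + (Nat.divisors n).card ∧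
    3 * n ≤ C.length + (Nat.divisors n).card + 2 ∧
    (n.Prime → 3 * n ≤ C.length + 4) ∧
    (∀ k : ℕ, n = 2 ^ k → 3 * n ≤ C.length + k + 3) := by
  have hrows : ∀ j : Fin n, row n j ∈ run C (init n) := rows_mem_of_computes n C out h
  have h1 := two_mul_le_countP_addSub n C hrows
  have h2 := le_countP_smul_add_divisors n C hrows
  have h3 := length_eq_countP_add C
  have h4 : 3 * n ≤ C.length + (Nat.divisors n).card + 2 := by omega
  refine ⟨h1, h2, h4, ?_, ?_⟩
  · intro hp
    have hd : (Nat.divisors n).card = 2 := by
      rw [Nat.Prime.divisors hp]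
      exact Finset.card_pair hp.one_lt.ne
    omega
  · intro k hk
    have hd : (Nat.divisors n).card = k + 1 := by
      rw [hk, Nat.divisors_prime_pow Nat.prime_two k]
      simp
    omega

end Vale.Agent.Results.P344.B_ThreeNPrimesAndPowersOfTwo
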